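import Mathlib
import Vale.Agent.P245.LSI.Final
import Vale.Agent.P245.LSI.CoreMain

namespace Vale.Agent.Results.P245.CubeRootBound

open MeasureTheory
open scoped RealInnerProductSpace

/-- The log-Sobolev constant of a linearly subgaussian log-concave measure on `ℝ^n` is at most
`C n^(1/3) a^2`. -/
theorem result :
    ∃ C : ℝ, 0 < C ∧ ∀ n : ℕ, 1 ≤ n → ∀ ρ : EuclideanSpace ℝ (Fin n) → ℝ, (∀ x, 0 ≤ ρ x) →
      Convex ℝ {x | 0 < ρ x} → ConcaveOn ℝ {x | 0 < ρ x} (fun x => Real.log (ρ x)) →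
      ∫⁻ x, ENNReal.ofReal (ρ x) = 1 →
      ∀ a : ℝ, 0 < a →
        (∀ θ : EuclideanSpace ℝ (Fin n), ‖θ‖ = 1 →
          ∫⁻ x, ENNReal.ofReal (Real.exp (⟪x, θ⟫ ^ 2 / a ^ 2) * ρ x) ≤ 2) →
        ∀ f : EuclideanSpace ℝ (Fin n) → ℝ, ContDiff ℝ (⊤ : ℕ∞) f → HasCompactSupport f →
          (∫ x, f x ^ 2 * Real.log (f x ^ 2) * ρ x)
              - (∫ x, f x ^ 2 * ρ x) * Real.log (∫ x, f x ^ 2 * ρ x)
            ≤ C * (n : ℝ) ^ (1 / 3 : ℝ) * a ^ 2 * ∫ x, ‖fderiv ℝ f x‖ ^ 2 * ρ x :=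
  Vale.Agent.P245.LSI.final Vale.Agent.P245.LSI.stmtCore

end Vale.Agent.Results.P245.CubeRootBound
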